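import Crest.Agent.N337.M.Peel
import Crest.Agent.N337.M.Bas
import Crest.Agent.N337.Pc.Loop

/-!
# Row 337: the Turán–Kubilius bounds of the ladder in configuration form (helper42)
-/

set_option autoImplicit false
set_option linter.unusedSectionVars false

namespace Crest.Agent.N337.Lv

open Finset Crest.Agent.N337.Op Crest.Agent.N337.Gas Crest.Agent.N337.Pc Crest.Agent.N337.M

section abs
variable {Γ : Type} [Fintype Γ] [DecidableEq Γ] {q : Finset Γ → ℝ} {u u' D D' al al' : Γ → ℝ}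
  {S S' Lg : Γ → Prop} {κ κ0 η : ℝ} {g : Γ} {Q : Finset Γ} {n : ℕ}

lemma up_zero (hq : Cpt q) (hg : q {g} = 0) (w : Finset Γ) : up q w g = 0 := by
  have : q (w ∪ {g}) = 0 := by
    by_contra h1; exact hq.ne_of_sub subset_union_right h1 hg
  rw [up, sh, this, zero_div, ite_self]

lemma P1_zero (hq : Cpt q) (hg : q {g} = 0) : P1 q u g = 0 := by simp [P1, up_zero hq hg, Op.ex]

lemma P2_zero (hq : Cpt q) (hg : q {g} = 0) (g' : Γ) : P2 q u g g' = 0 := by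
  simp [P2, up2_eq hq, up_zero hq hg, Op.ex]

lemma Phb_congr (hq : Cpt q) (h : ∀ g, q {g} ≠ 0 → al g = al' g) : Phb q al = Phb q al' :=
  funext fun w => sum_congr rfl fun g _ => by
    by_cases h0 : q {g} = 0
    · rw [up_zero hq h0, mul_zero, mul_zero]
    · rw [h g h0]

lemma Nm_congr (hq : Cpt q) (hu : ∀ g, q {g} ≠ 0 → u g = u' g)
    (h : ∀ g, q {g} ≠ 0 → al g = al' g) : Nm q u al = Nm q u' al' := by
  rw [Nm, Nm, nu_congr hq hu, Phb_congr hq h]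

lemma Bf_congr (hq : Cpt q) (hu : ∀ g, q {g} ≠ 0 → u g = u' g)
    (h : ∀ g, q {g} ≠ 0 → al g = al' g) : Bf q u al al = Bf q u' al' al' := by
  have e1 : P1 q u = P1 q u' := by funext g; rw [P1, P1, nu_congr hq hu]
  have e2 : P2 q u = P2 q u' := by funext g g'; rw [P2, P2, nu_congr hq hu]
  rw [Bf, Bf, e1, e2]
  refine sum_congr rfl fun g _ => sum_congr rfl fun g' _ => ?_
  by_cases h0 : q {g} = 0
  · simp [P1_zero hq h0, P2_zero hq h0]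
  by_cases h1 : q {g'} = 0
  · simp [P1_zero hq h1, P2_comm q u' g g', P2_zero hq h1]
  rw [h g h0, h g' h1]

lemma cut (hD : ∀ g, q {g} ≠ 0 → D g = D' g) (hS : ∀ g, S g → q {g} ≠ 0 → D g ≠ 0 → S' g)
    {a : Γ → ℝ} (ha : ∀ g, a g ≠ 0 → S g) : ∃ a' : Γ → ℝ, (∀ g, a' g ≠ 0 → S' g) ∧
      (∀ g, q {g} ≠ 0 → a g * D g = a' g * D' g) ∧
      ∀ g, q {g} ≠ 0 → a g ^ 2 * D g = a' g ^ 2 * D' g := by
  classical
  refine ⟨fun g => if q {g} ≠ 0 ∧ D g ≠ 0 then a g else 0, fun g hg => ?_, fun g hg => ?_,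
    fun g hg => ?_⟩
  · by_cases h : q {g} ≠ 0 ∧ D g ≠ 0
    · exact hS g (ha g (by simpa [h] using hg)) h.1 h.2
    · simp [h] at hg
  all_goals
    rw [← hD g hg]
    by_cases h : D g = 0 <;> simp [h, hg]

/-- only possible tests with `D ≠ 0` and the weights of possible polymers matter. -/
theorem tkt_congr (hq : Cpt q) (h : TKt q u' D' S' κ) (hu : ∀ g, q {g} ≠ 0 → u g = u' g)
    (hD : ∀ g, q {g} ≠ 0 → D g = D' g) (hS : ∀ g, S g → q {g} ≠ 0 → D g ≠ 0 → S' g) :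
    TKt q u D S κ := fun a ha => by
  obtain ⟨a', h1, h2, h3⟩ := cut hD hS ha
  rw [Bf_congr hq hu h2, Nm_congr hq hu h3]
  refine (h a' h1).trans_eq (congrArg (· + _) (sum_congr rfl fun g _ => ?_))
  by_cases h0 : q {g} = 0
  · simp [P1_zero hq h0]
  · rw [h2 g h0, P1, P1, nu_congr hq hu]

theorem tkb_congr (hq : Cpt q) (h : TKb q u' D' S' κ) (hu : ∀ g, q {g} ≠ 0 → u g = u' g)
    (hD : ∀ g, q {g} ≠ 0 → D g = D' g) (hS : ∀ g, S g → q {g} ≠ 0 → D g ≠ 0 → S' g) :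
    TKb q u D S κ := fun a ha => by
  obtain ⟨a', h1, h2, h3⟩ := cut hD hS ha
  rw [Nm_congr hq hu h3, Phb_congr hq h2, nu_congr hq hu]
  exact h a' h1

lemma rep_mono (h : Rep q Q n) {m : ℕ} (hm : n ≤ m) : Rep q Q m := by
  obtain ⟨l, a, b, c⟩ := h; exact ⟨l, a, fun X hX => (b X hX).trans hm, c⟩

/-- a family with small weights is sparse. -/
lemma Rt_small (hq : Rep q Q n) (hu : ∀ g, 0 ≤ u g) (hQ : ∀ g, D g ≠ 0 → g ∈ Q) (h0 : 0 ≤ η)
    (hη : ∀ g, S g → D g ≤ η) (g : Γ) : Rt q u D S g ≤ 2 * n * η * P1 q u g := by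
  classical
  have hc := hq.cpt
  have h := hq.Rt_le hu (D := fun g => if g ∈ Q then 1 else 0)
    (fun g => by split_ifs <;> norm_num) (fun g hg => by by_contra h; simp [h] at hg)
    (fun _ => True) g
  refine le_trans ?_ ((mul_le_mul_of_nonneg_left h h0).trans_eq (by ring))
  rw [Rt, Rt, mul_sum]
  refine sum_le_sum fun g' _ => ?_
  have nn := add_nonneg (P2_nn hc hu g g') (mul_nonneg (P1_nn hc hu g) (P1_nn hc hu g'))
  rw [if_pos trivial, ← mul_assoc]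
  split_ifs with h1 h2 h2
  · exact mul_le_mul_of_nonneg_right (by simpa using hη g' h1) nn
  · simp [not_not.1 (mt (hQ g') h2)]
  · exact mul_nonneg (by simpa using h0) nn
  · simp

/-- **long tests**, total form. -/
theorem tkt_long (hq : Rep q Q n) (hu : ∀ g, 0 ≤ u g) (hD : ∀ g, 0 ≤ D g ∧ D g ≤ 1)
    (hQ : ∀ g, D g ≠ 0 → g ∈ Q) (h0 : 0 ≤ η) (hη : ∀ g, Lg g → D g ≤ η) (hκ0 : 0 ≤ κ0)
    (hκ : 0 < κ) (h1 : 2 * n * η ≤ κ) (h2 : 2 * n * (2 * n * η) ≤ κ ^ 2)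
    (h : TKt q u D (fun g => S g ∧ ¬ Lg g) κ0) : TKt q u D S (κ0 + 5 * κ) :=
  dirty (S0 := fun g => ¬ Lg g) hq hu hD hQ hκ0 hκ h2 (fun _ h => h) h
    (fun g _ _ => (Rt_small hq hu hQ h0 (fun g h => hη g (not_not.1 h.2)) g).trans
      (mul_le_mul_of_nonneg_right h1 (P1_nn hq.cpt hu g)))
    fun g _ _ => Rt_small hq hu hQ h0 (fun g h => hη g h.2) g

/-- **long tests**, response form. -/
theorem tkb_long (hq : Rep q Q n) (hu : ∀ g, 0 ≤ u g) (hD : ∀ g, 0 ≤ D g)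
    (hQ : ∀ g, D g ≠ 0 → g ∈ Q) (h0 : 0 ≤ η) (hη : ∀ g, Lg g → D g ≤ η) (hκ0 : 0 ≤ κ0)
    (h : TKb q u D (fun g => S g ∧ ¬ Lg g) κ0) : TKb q u D S (2 * κ0 + 2 * (n * η)) :=
  fun a ha => by
  classical
  have hc := hq.cpt
  have hν := pr_nu hc hu
  set a0 : Γ → ℝ := fun g => if Lg g then 0 else a g with ha0
  set a2 : Γ → ℝ := fun g => if Lg g then a g else 0 with ha2
  have t0 := h a0 fun g hg => by
    by_cases h : Lg g
    · simp [ha0, h] at hg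
    · exact ⟨ha g (by simpa [ha0, h] using hg), h⟩
  have l0 : Nm q u (fun g => a0 g ^ 2 * D g) ≤ Nm q u fun g => a g ^ 2 * D g :=
    Nm_mono hc hu fun g => by
      simp only [ha0]; split_ifs
      · simpa using mul_nonneg (sq_nonneg (a g)) (hD g)
      · exact le_rfl
  have t2 : nsq (nu q u) (Phb q fun g => a2 g * D g) ≤ n * η * Nm q u fun g => a g ^ 2 * D g := by
    rw [Nm, ← ex_mul, nsq_eq_ex]
    refine ex_mono_ae hν.nn fun w hw => ?_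
    have c := cs (μ := fun g => D g * up q w g) (fun g => mul_nonneg (hD g) (up_nn hc w g))
      (fun g => if Lg g then 1 else 0) a
    have c1 : nsq (fun g => D g * up q w g) (fun g => if Lg g then 1 else 0) ≤ n * η := by
      refine le_trans ?_ ((mul_le_mul_of_nonneg_right (hq.sum_up_le (nu_supp hw).1) h0))
      rw [sum_mul, ← univ_inter Q, ← sum_ite_mem]
      refine sum_le_sum fun g _ => ?_
      have := up_nn hc w g
      by_cases h1 : Lg g <;> by_cases h2 : g ∈ Q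
      · simpa [h1, h2, mul_comm η] using mul_le_mul_of_nonneg_right (hη g h1) this
      · simp [h2, not_not.1 (mt (hQ g) h2)]
      · simpa [h1, h2] using mul_nonneg this h0
      · simp [h1, h2]
    have e1 : Phb q (fun g => a2 g * D g) w =
        ip (fun g => D g * up q w g) (fun g => if Lg g then 1 else 0) a :=
      sum_congr rfl fun g _ => by simp only [ha2]; split_ifs <;> ring
    have e2 : Phb q (fun g => a g ^ 2 * D g) w = nsq (fun g => D g * up q w g) a :=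
      sum_congr rfl fun g _ => by ring
    rw [e1, e2]
    exact c.trans (mul_le_mul_of_nonneg_right c1
      (nsq_nn (fun g => mul_nonneg (hD g) (up_nn hc w g)) _))
  have e : ∀ w, Phb q (fun g => a g * D g) w =
      Phb q (fun g => a0 g * D g) w + Phb q (fun g => a2 g * D g) w := fun w => by
    simp only [Phb, ← sum_add_distrib, ha0, ha2]
    exact sum_congr rfl fun g _ => by split_ifs <;> ring
  have t3 := hν.var_le_sub (Phb q fun g => a g * D g) (ex (nu q u) (Phb q fun g => a0 g * D g))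
  have t4 := nsq_add_le hν.nn (fun w => Phb q (fun g => a0 g * D g) w -
    ex (nu q u) (Phb q fun g => a0 g * D g)) (Phb q fun g => a2 g * D g)
  simp only [e, add_sub_right_comm] at t3
  rw [var] at t0
  rw [show (Phb q fun g => a g * D g) = fun w => Phb q (fun g => a0 g * D g) w +
    Phb q (fun g => a2 g * D g) w from funext e] at t3 ⊢
  nlinarith [mul_le_mul_of_nonneg_left l0 hκ0]

lemma nu_zero (hq : Cpt q) (hu : ∀ g, q {g} ≠ 0 → u g = 0) (f : Finset Γ → ℝ) :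
    ex (nu q u) f = f ∅ := by
  have hν := pr_nu hq (u := fun _ => 0) fun _ => le_rfl
  rw [nu_congr hq hu, ← hν.ex_const (f ∅)]
  refine ex_congr fun w hw => ?_
  rw [eq_empty_of_forall_notMem fun g hg => (nu_supp hw).2 g hg rfl]

/-- **empty medium**: the response vanishes. -/
lemma tkb_empty (hq : Cpt q) (hu : ∀ g, q {g} ≠ 0 → u g = 0) : TKb q u D S 0 := fun a _ => by
  simp [var, nsq_eq_ex, nu_zero hq hu]

end abs

variable {Λ : Type} [Fintype Λ] [DecidableEq Λ] {T : ℕ} [NeZero T]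

section loop
variable {ex ey : Fin T → Λ} {p : Fin T → ℝ} {u D : Lp T Λ → ℝ} {S : Lp T Λ → Prop} {κ : ℝ}

/-- a loop whose points lie in non adjacent blocks lies in one block. -/
lemma in_block {ι : Type} {B : ι → Finset Λ} (hB : Apart ex ey B) {g : Lp T Λ}
    (hg : qq ex ey p {g} ≠ 0) (h : ∀ v ∈ g.2, ∃ i, v.2 ∈ B i) : ∃ i, In (B i) g := by
  obtain ⟨ξ, -, hξ⟩ := qq_supp hg
  obtain ⟨v, rfl⟩ := mem_L.1 (singleton_subset_iff.1 hξ)
  obtain ⟨i, hi⟩ := h v (self_mem_obv ξ v)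
  have key : ∀ k : ℕ, ((Rep.Sg ex ey ξ ^ k) v).2 ∈ B i := fun k => by
    induction k with
    | zero => exact hi
    | succ k ih =>
      obtain ⟨j, hj⟩ := h _ (mem_obv.2 (Rep.o_pow _ (k + 1) v))
      rw [pow_succ', Equiv.Perm.mul_apply] at hj ⊢
      generalize (Rep.Sg ex ey ξ ^ k) v = w at ih hj
      obtain ⟨r, x⟩ := w
      simp only [Rep.Sg_apply, Rep.sg] at ih hj ⊢
      split_ifs at hj ⊢
      · rw [Equiv.swap_apply_def] at hj ⊢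
        split_ifs at hj ⊢ with h1 h2
        · exact hB.2 i j r (h1 ▸ ih) hj ▸ hj
        · exact (hB.2 j i r hj (h2 ▸ ih)).symm ▸ hj
        · exact ih
      · exact ih
  refine ⟨i, ⟨v, self_mem_obv ξ v⟩, fun w hw => ?_⟩
  obtain ⟨k, -, rfl⟩ := (Rep.o_eq.1 (mem_obv.1 hw).symm).exists_pow_eq'
  exact key k

/-- **empty medium**: the cross Gram bound is the total form. -/
theorem tk_empty (hp : ∀ s, 0 ≤ p s ∧ p s ≤ 1) (hu : ∀ g, qq ex ey p {g} ≠ 0 → u g = 0)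
    (hD : ∀ g, 0 ≤ D g ∧ D g ≤ 1) (hκ : 0 ≤ κ) (h : TK.Crs ex ey p S D (κ ^ 2)) :
    TKt (qq ex ey p) u D S κ := fun a ha => by
  have hc := cpt_qq (ex := ex) (ey := ey) hp
  have e : sh (qq ex ey p) ∅ = qP (Rep.Pw p) (L ex ey) := sh_empty hc
  have o : ∀ c : Lp T Λ → ℝ, off (· ∈ (∅ : Finset (Lp T Λ))) c = c := fun c => by
    funext g; simp [off]
  have h1 := h a (fun g => a g * D g) ha fun g hg => ha g (left_ne_zero_of_mul hg)
  have h2 := var_qP (pr_Pw hp) e fun g => a g * D g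
  have h3 : ∀ c : Lp T Λ → ℝ, Op.ex (Rep.Pw p) (TK.Ph ex ey c) = Phb (qq ex ey p) c ∅ :=
    fun c => by rw [← ex_qP e c, o]; rfl
  have h4 : Bf (qq ex ey p) u (fun g => a g * D g) (fun g => a g * D g) =
      Off (qq ex ey p) (fun g => a g * D g) ∅ := by simp only [Bf, Off, P1, P2, nu_zero hc hu]
  have h5 : Phb (qq ex ey p) (fun g => (a g * D g) ^ 2) ∅ ≤
      Phb (qq ex ey p) (fun g => a g ^ 2 * D g) ∅ := sum_le_sum fun g _ =>
    mul_le_mul_of_nonneg_right (by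
      nlinarith [mul_nonneg (mul_nonneg (sq_nonneg (a g)) (hD g).1) (sub_nonneg.2 (hD g).2)])
      (up_nn hc _ g)
  have h6 : 0 ≤ Phb (qq ex ey p) (fun g => a g ^ 2 * D g) ∅ :=
    sum_nonneg fun g _ => mul_nonneg (mul_nonneg (sq_nonneg _) (hD g).1) (up_nn hc _ g)
  rw [o, (pr_Pw hp).var_eq, nsq_eq_ex] at h2
  simp only [h3, ← sq] at h1
  have h7 := abs_le_of_sq_le_sq' (h1.trans ((mul_le_mul_of_nonneg_left h5
    (mul_nonneg (sq_nonneg κ) h6)).trans_eq (by rw [mul_assoc, ← sq, ← mul_pow])))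
    (mul_nonneg hκ h6)
  have h8 := h3 fun g => a g * D g
  simp only [h4, Nm, P1, nu_zero hc hu]
  simp only [mul_sub, sum_sub_distrib] at h2
  unfold TK.Ph at h7 h8
  rw [h8] at h2
  have h9 : Phb (qq ex ey p) (fun g => (a g * D g) ^ 2) ∅ =
    ∑ g, (a g * D g) ^ 2 * up (qq ex ey p) ∅ g := rfl
  linarith [h7.2]

end loop

variable {G : Bs T Λ} {s s' : Cfg T Λ} {U D : Lp T Λ → ℝ} {S S' : Lp T Λ → Prop} {κ : ℝ}
  {A : Finset (Lp T Λ)} {g : Lp T Λ} {N : ℕ}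

/-- total form in the configuration `s` (medium `U`, top colour `D`). -/
def Tt (G : Bs T Λ) (U D : Lp T Λ → ℝ) (s : Cfg T Λ) (S : Lp T Λ → Prop) (κ : ℝ) : Prop :=
  TKt (G.q s) (s.u U) (s.u D) S κ
/-- response form in the configuration `s`. -/
def Tb (G : Bs T Λ) (U D : Lp T Λ → ℝ) (s : Cfg T Λ) (S : Lp T Λ → Prop) (κ : ℝ) : Prop :=
  TKb (G.q s) (s.u U) (s.u D) S κ
open Classical in
/-- mean number of marked up loops of the family `S`. -/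
noncomputable def Nc (G : Bs T Λ) (U D : Lp T Λ → ℝ) (s : Cfg T Λ) (S : Lp T Λ → Prop) : ℝ :=
  Nm (G.q s) (s.u U) fun g => if S g then s.u D g else 0
/-- possible alive tests. -/
def Al (G : Bs T Λ) (D : Lp T Λ → ℝ) (s : Cfg T Λ) (g : Lp T Λ) : Prop :=
  G.Val (s.add {g}) ∧ ¬ Hit s.K g ∧ D g ≠ 0

lemma u_ne (h : s.u D g ≠ 0) : ¬ Hit s.K g ∧ D g ≠ 0 := by
  unfold Cfg.u off at h; split_ifs at h with h1; exacts [absurd rfl h, ⟨h1, h⟩]

lemma u_mem (hD : ∀ g, 0 ≤ D g ∧ D g ≤ 1) (s : Cfg T Λ) (g : Lp T Λ) :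
    0 ≤ s.u D g ∧ s.u D g ≤ 1 := by
  unfold Cfg.u off; split_ifs; exacts [⟨le_rfl, zero_le_one⟩, hD g]

lemma u_le (hD : ∀ g, 0 ≤ D g) (s : Cfg T Λ) (g : Lp T Λ) : s.u D g ≤ D g := by
  unfold Cfg.u off; split_ifs; exacts [hD g, le_rfl]

lemma Tt.al (hG : G.Ok) (hs : G.Val s) (h : Tt G U D s S' κ) (hS : ∀ g, S g → Al G D s g → S' g) :
    Tt G U D s S κ :=
  tkt_congr (hG.cpt s) h (fun _ _ => rfl) (fun _ _ => rfl) fun g a b c =>
    hS g a ⟨hs.add b, u_ne c⟩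

lemma Tb.al (hG : G.Ok) (hs : G.Val s) (h : Tb G U D s S' κ) (hS : ∀ g, S g → Al G D s g → S' g) :
    Tb G U D s S κ :=
  tkb_congr (hG.cpt s) h (fun _ _ => rfl) (fun _ _ => rfl) fun g a b c =>
    hS g a ⟨hs.add b, u_ne c⟩

lemma Tt.mono (hG : G.Ok) (hU : ∀ g, 0 ≤ U g) (hD : ∀ g, 0 ≤ D g) {κ' : ℝ} (h : Tt G U D s S κ)
    (hκ : κ ≤ κ') : Tt G U D s S κ' :=
  TKt.mono (hG.cpt s) (Cfg.u_nn hU s) (Cfg.u_nn hD s) h (fun _ h => h) hκ

lemma Tb.mono (hG : G.Ok) (hU : ∀ g, 0 ≤ U g) (hD : ∀ g, 0 ≤ D g) {κ' : ℝ} (h : Tb G U D s S κ)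
    (hκ : κ ≤ κ') : Tb G U D s S κ' :=
  TKb.mono (hG.cpt s) (Cfg.u_nn hU s) (Cfg.u_nn hD s) h (fun _ h => h) hκ

/-- the field `tkt` of the ladder. -/
theorem Tt.lad (hG : G.Ok) (hs : G.Val s) (hA : G.q s A ≠ 0) (h : Tt G U D (s.add A) S κ) :
    TKt (sh (G.q s) A) (off (· ∈ A) (s.u U)) (off (· ∈ A) (s.u D)) S κ := by
  rw [Pl.sh_q hs (hs.add hA)]
  exact tkt_congr (hG.cpt _) h (fun g hg => Pl.off_u hs (hs.add hA) _ hg)
    (fun g hg => Pl.off_u hs (hs.add hA) _ hg) fun _ h _ _ => h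

/-- the field `tkb` of the ladder. -/
theorem Tb.lad (hG : G.Ok) (hs : G.Val s) (hA : G.q s A ≠ 0) (h : Tb G U D (s.add A) S κ) :
    TKb (sh (G.q s) A) (off (· ∈ A) (s.u U)) (off (· ∈ A) (s.u D)) S κ := by
  rw [Pl.sh_q hs (hs.add hA)]
  exact tkb_congr (hG.cpt _) h (fun g hg => Pl.off_u hs (hs.add hA) _ hg)
    (fun g hg => Pl.off_u hs (hs.add hA) _ hg) fun _ h _ _ => h

lemma rep_cfg (hG : G.Ok) (h : s.Sup N) :
    Rep (G.q s) (univ.filter fun g => ¬ Hit s.K g) N := by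
  obtain ⟨S, h1, h2⟩ := h
  refine rep_mono (rep_qq (hG.pn s) fun g hg x hx => h2 (0, x) fun hz => ?_) h1
  exact (mem_filter.1 hg).2 ⟨_, hx, mem_union_left _ hz⟩

lemma mem_Q (h : s.u D g ≠ 0) : g ∈ univ.filter fun g => ¬ Hit s.K g :=
  mem_filter.2 ⟨mem_univ _, (u_ne h).1⟩

theorem Tt.tb (hG : G.Ok) (hU : ∀ g, 0 ≤ U g) (hD : ∀ g, 0 ≤ D g ∧ D g ≤ 1)
    (h : Tt G U D s S κ) : Tb G U D s S (1 + κ) :=
  TKt.tkb (rep_cfg hG ⟨univ, le_rfl, fun _ _ => mem_univ _⟩) (Cfg.u_nn hU s) (u_mem hD s) h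

theorem Tt.long (hG : G.Ok) (hN : s.Sup N) (hU : ∀ g, 0 ≤ U g) (hD : ∀ g, 0 ≤ D g ∧ D g ≤ 1)
    {Lg : Lp T Λ → Prop} {η κ0 : ℝ} (h0 : 0 ≤ η) (hη : ∀ g, Lg g → D g ≤ η) (hκ0 : 0 ≤ κ0)
    (hκ : 0 < κ) (h1 : 2 * N * η ≤ κ) (h2 : 2 * N * (2 * N * η) ≤ κ ^ 2)
    (h : Tt G U D s (fun g => S g ∧ ¬ Lg g) κ0) : Tt G U D s S (κ0 + 5 * κ) :=
  tkt_long (rep_cfg hG hN) (Cfg.u_nn hU s) (u_mem hD s) (fun _ => mem_Q) h0
    (fun g hg => (u_le (fun g => (hD g).1) s g).trans (hη g hg)) hκ0 hκ h1 h2 h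

theorem Tb.long (hG : G.Ok) (hN : s.Sup N) (hU : ∀ g, 0 ≤ U g) (hD : ∀ g, 0 ≤ D g)
    {Lg : Lp T Λ → Prop} {η : ℝ} (h0 : 0 ≤ η) (hη : ∀ g, Lg g → D g ≤ η) (hκ : 0 ≤ κ)
    (h : Tb G U D s (fun g => S g ∧ ¬ Lg g) κ) : Tb G U D s S (2 * κ + 2 * (N * η)) :=
  tkb_long (rep_cfg hG hN) (Cfg.u_nn hU s) (Cfg.u_nn hD s) (fun _ => mem_Q) h0
    (fun g hg => (u_le hD s g).trans (hη g hg)) hκ h

/-- the rate of a family from the two configurations. -/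
theorem Rt_cfg (hG : G.Ok) (hs : G.Val s) (hU : ∀ g, 0 ≤ U g) (hD : ∀ g, 0 ≤ D g) {x : ℝ}
    (h0 : Nc G U D s S ≤ x) (h1 : G.Val (s.add {g}) → Nc G U D (s.add {g}) S ≤ x) :
    Rt (G.q s) (s.u U) (s.u D) S g ≤ 2 * x * P1 (G.q s) (s.u U) g := by
  classical
  refine Rt_le (hG.cpt s) (Cfg.u_nn hU s) (Cfg.u_nn hD s) S g h0 fun hg => ?_
  have hv := hs.add hg
  refine le_trans (le_of_eq ?_) (h1 hv)
  rw [Pl.sh_q hs hv]
  refine Nm_congr (hG.cpt _) (fun g' h => Pl.off_u hs hv _ h) fun g' h => ?_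
  rw [← Pl.off_u hs hv _ h, off]
  by_cases h2 : S g' <;> by_cases h3 : g' = g <;> simp [h2, h3]

/-- **dirty tests** in configuration form. -/
theorem Tt.dirty (hG : G.Ok) (hs : G.Val s) (hN : s.Sup N) (hU : ∀ g, 0 ≤ U g)
    (hD : ∀ g, 0 ≤ D g ∧ D g ≤ 1) {S0 S2 : Lp T Λ → Prop} {κ0 x ε : ℝ} (hκ0 : 0 ≤ κ0)
    (hx : 0 < x) (hn : N * ε ≤ x ^ 2) (h02 : ∀ g, S0 g → ¬ S2 g)
    (h01 : Tt G U D s (fun g => S g ∧ ¬ S2 g) κ0)
    (d1 : Nc G U D s (fun g => S g ∧ ¬ S0 g) ≤ x)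
    (d1' : ∀ g, S g → ¬ S0 g → G.Val (s.add {g}) →
      Nc G U D (s.add {g}) (fun g => S g ∧ ¬ S0 g) ≤ x)
    (d2 : Nc G U D s (fun g => S g ∧ S2 g) ≤ ε)
    (d2' : ∀ g, S g → S0 g → G.Val (s.add {g}) →
      Nc G U D (s.add {g}) (fun g => S g ∧ S2 g) ≤ ε) :
    Tt G U D s S (κ0 + 10 * x) := by
  have := Pc.dirty (κ := 2 * x) (ε := 2 * ε) (rep_cfg hG hN) (Cfg.u_nn hU s) (u_mem hD s)
    (fun _ => mem_Q) hκ0 (by positivity) (by nlinarith) h02 h01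
    (fun g a b => Rt_cfg hG hs hU (fun g => (hD g).1) d1 (d1' g a b))
    fun g a b => Rt_cfg hG hs hU (fun g => (hD g).1) d2 (d2' g a b)
  rwa [show 5 * (2 * x) = 10 * x by ring] at this

/-- **boxes**: the total form is additive; `c i` = the configuration of the box `i`. -/
theorem Tt.box (hG : G.Ok) (hU : ∀ g, 0 ≤ U g) {ι : Type} [Fintype ι] [DecidableEq ι]
    {B : ι → Finset Λ} (hB : Apart G.ex G.ey B) (hc : ∀ v, v ∉ s.Z → ∃ i, v.2 ∈ B i)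
    {c : ι → Cfg T Λ} (he : ∀ i, (c i).e = s.e) (hZ : ∀ i v, v ∈ (c i).Z ↔ v ∈ s.Z ∨ v.2 ∉ B i)
    (H : ∀ i, Tt G U D (c i) (fun g => S g ∧ In (B i) g) κ) : Tt G U D s S κ := by
  classical
  have hq := hG.cpt s
  have k1 : ∀ (W : Lp T Λ → ℝ) g, on (fun g => G.q s {g} ≠ 0) (s.u W) g ≠ 0 → ∃ i, In (B i) g :=
    fun W g hg => by
      unfold on at hg
      split_ifs at hg with h
      · exact in_block hB h fun v hv => hc v fun hz => (u_ne hg).1 ⟨v, hv, mem_union_left _ hz⟩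
      · exact absurd rfl hg
  have k2 : ∀ (W : Lp T Λ → ℝ) i g, G.q s {g} ≠ 0 →
      on (In (B i)) (on (fun g => G.q s {g} ≠ 0) (s.u W)) g = (c i).u W g := fun W i g hg => by
    have e : Hit (c i).K g ↔ Hit s.K g ∨ ¬ In (B i) g := by
      simp only [Hit, Cfg.K, In, mem_union, hZ, he, qq_nonempty hg (mem_singleton_self g),
        true_and, not_forall]
      exact ⟨fun ⟨v, a, b⟩ => by
        rcases b with (b | b) | b
        exacts [.inl ⟨v, a, .inl b⟩, .inr ⟨v, a, b⟩, .inl ⟨v, a, .inr b⟩],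
        fun h => h.elim (fun ⟨v, a, b⟩ => ⟨v, a, by tauto⟩) fun ⟨v, a, b⟩ => ⟨v, a, by tauto⟩⟩
    simp only [on, Cfg.u, off, e, hg, ne_eq, not_false_eq_true, if_true]
    by_cases h1 : In (B i) g <;> simp [h1]
  refine tkt_congr hq ((box_qq hB (hG.pn s)).tkt (on_nn (Cfg.u_nn hU s)) (k1 U) (k1 D)
    fun i => ?_) (fun g hg => (if_pos hg).symm) (fun g hg => (if_pos hg).symm) fun _ h _ _ => h
  have e : G.q (c i) = G.q s := by rw [Bs.q, Bs.q, Bs.pn, Bs.pn, he]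
  have h := H i
  rw [Tt, e] at h
  refine tkt_congr hq h (k2 U i) (k2 D i) fun g a _ b => ⟨a, ?_⟩
  by_contra h1
  exact b (if_neg h1)

lemma u_zero (hg : G.q s {g} ≠ 0) : s.u (yw 0) g = 0 := by
  obtain ⟨ξ, -, hξ⟩ := qq_supp hg
  obtain ⟨x, hx⟩ := exists_root (singleton_subset_iff.1 hξ)
  have : yw 0 g = 0 := prod_eq_zero hx (by simp [Top.bt])
  simp [Cfg.u, off, this]

/-- **level one**: the medium is empty. -/
theorem tt_one (hG : G.Ok) (hD : ∀ g, 0 ≤ D g ∧ D g ≤ 1) (hκ : 0 ≤ κ)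
    (h : TK.Crs G.ex G.ey (G.pn s) S (s.u D) (κ ^ 2)) : Tt G (yw 0) D s S κ :=
  tk_empty (hG.pn s) (fun _ => u_zero) (u_mem hD s) hκ h

theorem tb_one (hG : G.Ok) : Tb G (yw 0) D s S 0 := tkb_empty (hG.cpt s) fun _ => u_zero

lemma Nc_mono (hG : G.Ok) (hU : ∀ g, 0 ≤ U g) (hD : ∀ g, 0 ≤ D g) (h : ∀ g, S g → S' g) :
    Nc G U D s S ≤ Nc G U D s S' :=
  Nm_mono (hG.cpt s) (Cfg.u_nn hU s) fun g => by
    by_cases h1 : S g
    · rw [if_pos h1, if_pos (h g h1)]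
    · rw [if_neg h1]; split_ifs; exacts [Cfg.u_nn hD s g, le_rfl]

/-- from block TK. -/
theorem tk_cfg (hG : G.Ok) (hU : ∀ g, 0 ≤ U g) {κa κb : ℝ} (hD : ∀ g, 0 ≤ D g)
    (ha : TK.TKa G.ex G.ey (G.pn s) (s.u U) (s.u D) S κa)
    (hb : TK.TKb G.ex G.ey (G.pn s) (s.u U) (s.u D) S κb) (h1 : κa ≤ κ) (h2 : κb ≤ κ) :
    Tt G U D s S (2 * κ) ∧ Tb G U D s S κb := by
  have n0 : ∀ a : Lp T Λ → ℝ, 0 ≤ Op.ex (nu (qq G.ex G.ey (G.pn s)) (s.u U))
      (TK.U G.ex G.ey (G.pn s) fun g => a g ^ 2 * s.u D g) := fun a => by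
    rw [ex_U]
    exact Nm_nn (hG.cpt s) (Cfg.u_nn hU s) fun g => mul_nonneg (sq_nonneg _) (Cfg.u_nn hD s g)
  exact ⟨(tk_of (hG.pn s)
    (fun a h => (ha a h).trans (add_le_add le_rfl (mul_le_mul_of_nonneg_right h1 (n0 a))))
    fun a h => (hb a h).trans (mul_le_mul_of_nonneg_right h2 (n0 a))).tkt (hG.cpt s)
      (Cfg.u_nn hU s), tkb_of hb⟩

open Classical in
/-- **the ladder** from (H1), (H2) and the bounds in the configurations `s + A`. -/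
theorem lad_mk (hG : G.Ok) (hs : G.Val s) (hU : ∀ g, 0 ≤ U g) (hD : ∀ g, 0 ≤ D g ∧ D g ≤ 1)
    {Gd : ℕ → Finset (Lp T Λ) → Prop} {n : ℕ} {ε κb : ℝ}
    (down : ∀ i A B, B ⊆ A → Gd i A → Gd i B) (mono : ∀ i A, Gd i A → Gd (i + 1) A)
    (h1 : ∀ i ≤ n, ∀ A, Gd i A → G.q s A ≠ 0 → (∀ g ∈ A, s.u D g ≠ 0) →
      kB (Rep.Pw (G.pn s)) (L G.ex G.ey) (s.u U) (s.u D) A
        (Op.ind fun B => ¬ Gd (i + 1) (A ∪ B)) ≤ ε)
    (h2 : ∀ A, Gd n A → G.q s A ≠ 0 → (∀ g ∈ A, s.u D g ≠ 0) →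
      kB (Rep.Pw (G.pn s)) (L G.ex G.ey) (s.u U) (s.u D) A (Op.ind fun B => ¬ Gd 0 B) ≤ ε)
    (h : ∀ A, Gd (n + 1) A → G.Val (s.add A) → (∀ g ∈ A, s.u D g ≠ 0) →
      Tt G U D (s.add A) (fun g => Gd (n + 1) (insert g A)) κ ∧
      Tb G U D (s.add A) (fun g => Gd (n + 1) (insert g A)) κb) :
    Lad (Rep.Pw (G.pn s)) (L G.ex G.ey) (s.u U) (s.u D) Gd n ε κ κb where
  pr := pr_Pw (hG.pn s)
  u0 := Cfg.u_nn hU s
  D0 g := (u_mem hD s g).1
  D1 g := (u_mem hD s g).2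
  down := down
  mono := mono
  h1 := h1
  h2 := h2
  tkt A a b c := (h A a (hs.add b) c).1.lad hG hs b
  tkb A a b c := (h A a (hs.add b) c).2.lad hG hs b

end Crest.Agent.N337.Lv
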